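import Mathlib

/-!
Definitions used in the statement for P296 (Griffiths positivity of ample vector bundles).
Only standard notions, written out over Mathlib.
-/

open scoped Manifold ContDiff Topology ComplexOrder
open Set

namespace Vale.Agent.P296

/-- The model space of complex manifolds of dimension `n`. -/
abbrev Cn (n : ℕ) : Type := EuclideanSpace ℂ (Fin n)

section Generic

variable (E : Type) [NormedAddCommGroup E] [NormedSpace ℂ E] {F : Type} [NormedAddCommGroup F]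
  [NormedSpace ℂ F] {M : Type} [TopologicalSpace M] [ChartedSpace E M]

/-- `f` is holomorphic on `U`. -/
def HolomorphicOn (f : M → F) (U : Set M) : Prop := ContMDiffOn 𝓘(ℂ, E) 𝓘(ℂ, F) ω f U

/-- The complex differential of `f` at `x`, in the direction `ξ`. -/
noncomputable def holDeriv (f : M → F) (x : M) (ξ : E) : F := mfderiv 𝓘(ℂ, E) 𝓘(ℂ, F) f x ξ

/-- `f` is jointly holomorphic on a subset of `M × F`. -/
def HolomorphicOnProd (f : M × F → ℂ) (U : Set (M × F)) : Prop :=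
  ContMDiffOn (𝓘(ℂ, E).prod 𝓘(ℂ, F)) 𝓘(ℂ, ℂ) ω f U

/-- The complex differential of `f` at `p`, in the direction `(ξ, η)`. -/
noncomputable def holDerivProd (f : M × F → ℂ) (p : M × F) (ξ : E) (η : F) : ℂ :=
  mfderiv (𝓘(ℂ, E).prod 𝓘(ℂ, F)) 𝓘(ℂ, ℂ) f p (ξ, η)

end Generic

/-- `X` admits a holomorphic embedding into some complex projective space: an injective map
which near each point is given by a nowhere-zero holomorphic vector of homogeneous coordinates,
and whose differential is injective. -/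
def IsProjectiveEmbeddable (n : ℕ) (X : Type) [TopologicalSpace X] [ChartedSpace (Cn n) X] :
    Prop :=
  ∃ (N : ℕ) (Φ : X → Projectivization ℂ (Fin (N + 1) → ℂ)),
    Function.Injective Φ ∧
    ∀ x : X, ∃ (U : Set X) (ψ : X → Fin (N + 1) → ℂ), IsOpen U ∧ x ∈ U ∧
      HolomorphicOn (Cn n) ψ U ∧
      (∀ y ∈ U, ∃ h : ψ y ≠ 0, Φ y = Projectivization.mk ℂ (ψ y) h) ∧
      (∀ (ξ : Cn n) (c : ℂ), holDeriv (Cn n) ψ x ξ = c • ψ x → ξ = 0)

variable {n r : ℕ} {X : Type} [TopologicalSpace X] {ι : Type}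

/-- A functional `w` in the trivialisation `j`, read in the trivialisation `i`. -/
noncomputable def pullFun (Z : VectorBundleCore ℂ X (Fin r → ℂ) ι) (i j : ι) (x : X)
    (w : Fin r → ℂ) : Fin r → ℂ :=
  fun a => ∑ b, w b * Z.coordChange i j x (Pi.single a 1) b

/-- `S` is a family of global sections of `O(k)` on the bundle of lines of the dual bundle:
functions on the dual bundle, holomorphic and homogeneous of degree `k` on the fibres. -/
def AreDegreeSections (n : ℕ) [ChartedSpace (Cn n) X] (Z : VectorBundleCore ℂ X (Fin r → ℂ) ι)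
    (k : ℕ) {N : ℕ} (S : Fin (N + 1) → ι → X → (Fin r → ℂ) → ℂ) : Prop :=
  (∀ l i, HolomorphicOnProd (Cn n)
    (fun p : X × (Fin r → ℂ) => S l i p.1 p.2) (Z.baseSet i ×ˢ Set.univ)) ∧
  (∀ l i x, x ∈ Z.baseSet i → ∀ (c : ℂ) w, S l i x (c • w) = c ^ k * S l i x w) ∧
  (∀ l i j x, x ∈ Z.baseSet i ∩ Z.baseSet j → ∀ w, S l i x (pullFun Z i j x w) = S l j x w)

/-- The family `S` has no common zero and separates the points of the bundle of lines. -/
def SeparatesLines (Z : VectorBundleCore ℂ X (Fin r → ℂ) ι)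
    {N : ℕ} (S : Fin (N + 1) → ι → X → (Fin r → ℂ) → ℂ) : Prop :=
  (∀ i x, x ∈ Z.baseSet i → ∀ w, w ≠ 0 → ∃ l, S l i x w ≠ 0) ∧
  (∀ i j x y, x ∈ Z.baseSet i → y ∈ Z.baseSet j → ∀ w w', w ≠ 0 → w' ≠ 0 →
    (∃ c : ℂ, ∀ l, S l i x w = c * S l j y w') →
      x = y ∧ ∃ d : ℂ, pullFun Z i j x w' = d • w)

/-- The family `S` separates the tangent vectors of the bundle of lines. -/
def SeparatesTangents (n : ℕ) [ChartedSpace (Cn n) X] (Z : VectorBundleCore ℂ X (Fin r → ℂ) ι)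
    {N : ℕ} (S : Fin (N + 1) → ι → X → (Fin r → ℂ) → ℂ) : Prop :=
  ∀ i x, x ∈ Z.baseSet i → ∀ w, w ≠ 0 → ∀ (ξ : Cn n) (η : Fin r → ℂ) (c : ℂ),
    (∀ l, holDerivProd (Cn n) (fun p : X × (Fin r → ℂ) => S l i p.1 p.2) (x, w) ξ η =
      c * S l i x w) →
    ξ = 0 ∧ ∃ d : ℂ, η = d • w

/-- A holomorphic vector bundle, given by a cocycle `Z`, is ample: for some `k > 0` finitely many
global sections of `O(k)` on the projective bundle of lines of the dual bundle define a holomorphic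
embedding of that projective bundle into projective space.
In the trivialisation `i` a functional is the vector `w`, acting by `v ↦ ∑ a, w a * v a`. -/
def IsAmple (n : ℕ) [ChartedSpace (Cn n) X] (Z : VectorBundleCore ℂ X (Fin r → ℂ) ι) : Prop :=
  ∃ (k N : ℕ) (S : Fin (N + 1) → ι → X → (Fin r → ℂ) → ℂ), 0 < k ∧
    AreDegreeSections n Z k S ∧ SeparatesLines Z S ∧ SeparatesTangents n Z S

/-- The directional derivative `∂_ξ f` of type (1,0). -/
noncomputable def wirt (ξ : Cn n) (f : Cn n → ℂ) (p : Cn n) : ℂ :=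
  (1 / 2 : ℂ) * (fderiv ℝ f p ξ - Complex.I * fderiv ℝ f p (Complex.I • ξ))

/-- The directional derivative `∂̄_ξ f` of type (0,1). -/
noncomputable def wirtBar (ξ : Cn n) (f : Cn n → ℂ) (p : Cn n) : ℂ :=
  (1 / 2 : ℂ) * (fderiv ℝ f p ξ + Complex.I * fderiv ℝ f p (Complex.I • ξ))

/-- A smooth Hermitian metric: in every trivialisation a smooth field of positive definite
matrices, compatible with the transition functions. -/
def IsHermitianMetric (n : ℕ) [ChartedSpace (Cn n) X] (Z : VectorBundleCore ℂ X (Fin r → ℂ) ι)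
    (H : ι → X → Matrix (Fin r) (Fin r) ℂ) : Prop :=
  (∀ i x, x ∈ Z.baseSet i → (H i x).PosDef) ∧
  (∀ i j x, x ∈ Z.baseSet i ∩ Z.baseSet j → ∀ v w,
    star (Z.coordChange i j x v) ⬝ᵥ (H j x).mulVec (Z.coordChange i j x w) =
      star v ⬝ᵥ (H i x).mulVec w) ∧
  (∀ i a b, ContMDiffOn 𝓘(ℝ, Cn n) 𝓘(ℝ, ℂ) ∞ (fun x => H i x a b) (Z.baseSet i))

/-- The matrix `-∂̄_ξ∂_ξ G + ∂̄_ξ G G⁻¹ ∂_ξ G`: the Chern curvature of the metric `G` evaluated
on `(ξ, ξ̄)` and lowered by `G`. -/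
noncomputable def curvatureForm (G : Cn n → Matrix (Fin r) (Fin r) ℂ) (p ξ : Cn n) :
    Matrix (Fin r) (Fin r) ℂ :=
  - Matrix.of (fun a b => wirtBar ξ (fun q => wirt ξ (fun q' => G q' a b) q) p) +
    Matrix.of (fun a b => wirtBar ξ (fun q => G q a b) p) * (G p)⁻¹ *
      Matrix.of (fun a b => wirt ξ (fun q => G q a b) p)

/-- Strict Griffiths positivity of the Chern curvature of the Hermitian metric `H`. -/
def IsGriffithsPositive (n : ℕ) [ChartedSpace (Cn n) X] (Z : VectorBundleCore ℂ X (Fin r → ℂ) ι)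
    (H : ι → X → Matrix (Fin r) (Fin r) ℂ) : Prop :=
  ∀ i x, x ∈ Z.baseSet i → ∀ ξ : Cn n, ξ ≠ 0 → ∀ v : Fin r → ℂ, v ≠ 0 →
    0 < (star v ⬝ᵥ (curvatureForm (fun p => H i ((extChartAt 𝓘(ℂ, Cn n) x).symm p))
      (extChartAt 𝓘(ℂ, Cn n) x x) ξ).mulVec v).re

end Vale.Agent.P296
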