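import Mathlib
import Vale.Agent.P296.Defs
import Vale.Agent.P296.Algebra.Interface

/-!
The explicit surface `X m = ℙ¹ × Y m`, `Y m` the quotient by sign of the double cover
`u² = s₁^(6m) - s₀^(6m)`, `v² = s₁^(6m) + s₀^(6m)`, and the cocycle of the bundle `E m`.
-/

open Set
open scoped Manifold ContDiff Topology

noncomputable section

namespace Vale.Agent.P296

/-- Homogeneous representatives of points of `X m`. -/
@[ext]
structure Rep (m : ℕ) where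
  z : Fin 2 → ℂ
  s : Fin 2 → ℂ
  u : ℂ
  v : ℂ
  hz : z ≠ 0
  hs : s ≠ 0
  hu : u ^ 2 = s 1 ^ (6 * m) - s 0 ^ (6 * m)
  hv : v ^ 2 = s 1 ^ (6 * m) + s 0 ^ (6 * m)

variable {m : ℕ}

def Rep.tuple (p : Rep m) : (Fin 2 → ℂ) × (Fin 2 → ℂ) × ℂ × ℂ := (p.z, p.s, p.u, p.v)

instance : TopologicalSpace (Rep m) := TopologicalSpace.induced Rep.tuple inferInstance

/-- The gauge group acts by `(z, s, u, v) ↦ (a z, b s, e b^(3m) u, e b^(3m) v)` with `e = ±1`. -/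
def Rep.Rel (p q : Rep m) : Prop :=
  ∃ a b e : ℂ, a ≠ 0 ∧ b ≠ 0 ∧ e ^ 2 = 1 ∧ q.z = a • p.z ∧ q.s = b • p.s ∧
    q.u = e * b ^ (3 * m) * p.u ∧ q.v = e * b ^ (3 * m) * p.v

theorem Rep.Rel.refl (p : Rep m) : Rep.Rel p p :=
  ⟨1, 1, 1, one_ne_zero, one_ne_zero, by simp, by simp, by simp, by simp, by simp⟩

theorem Rep.Rel.symm {p q : Rep m} (h : Rep.Rel p q) : Rep.Rel q p := by
  obtain ⟨a, b, e, ha, hb, he, h1, h2, h3, h4⟩ := h
  have he' : e * e = 1 := by rw [← sq]; exact he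
  have hb3 : b⁻¹ ^ (3 * m) * b ^ (3 * m) = 1 := by
    rw [← mul_pow, inv_mul_cancel₀ hb, one_pow]
  refine ⟨a⁻¹, b⁻¹, e, inv_ne_zero ha, inv_ne_zero hb, he, ?_, ?_, ?_, ?_⟩
  · rw [h1, smul_smul, inv_mul_cancel₀ ha, one_smul]
  · rw [h2, smul_smul, inv_mul_cancel₀ hb, one_smul]
  · rw [h3]; linear_combination (-p.u * b⁻¹ ^ (3 * m) * b ^ (3 * m)) * he' - p.u * hb3
  · rw [h4]; linear_combination (-p.v * b⁻¹ ^ (3 * m) * b ^ (3 * m)) * he' - p.v * hb3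

theorem Rep.Rel.trans {p q r : Rep m} (h : Rep.Rel p q) (h' : Rep.Rel q r) : Rep.Rel p r := by
  obtain ⟨a, b, e, ha, hb, he, h1, h2, h3, h4⟩ := h
  obtain ⟨a', b', e', ha', hb', he', k1, k2, k3, k4⟩ := h'
  refine ⟨a' * a, b' * b, e' * e, mul_ne_zero ha' ha, mul_ne_zero hb' hb,
    by rw [mul_pow, he', he, one_mul], ?_, ?_, ?_, ?_⟩
  · rw [k1, h1, smul_smul]
  · rw [k2, h2, smul_smul]
  · rw [k3, h3, mul_pow]; ring
  · rw [k4, h4, mul_pow]; ring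

instance repSetoid (m : ℕ) : Setoid (Rep m) :=
  ⟨Rep.Rel, ⟨Rep.Rel.refl, Rep.Rel.symm, Rep.Rel.trans⟩⟩

/-- The surface. -/
def X (m : ℕ) : Type := Quotient (repSetoid m)

instance : TopologicalSpace (X m) := inferInstanceAs (TopologicalSpace (Quotient (repSetoid m)))

def Rep.pt (p : Rep m) : X m := Quotient.mk (repSetoid m) p

/-- Index of a trivialisation: `z a ≠ 0`, `s b ≠ 0`, and `u ≠ 0` (`c = 0`) or `v ≠ 0` (`c = 1`). -/
abbrev Idx : Type := Fin 2 × Fin 2 × Fin 2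

def Rep.chi (p : Rep m) (c : Fin 2) : ℂ := if c = 0 then p.u else p.v

def Rep.InBase (p : Rep m) (i : Idx) : Prop := p.z i.1 ≠ 0 ∧ p.s i.2.1 ≠ 0 ∧ p.chi i.2.2 ≠ 0

/-- Normalising factor of the two coordinates `x₁`, `x₂`. -/
noncomputable def Rep.qfac (p : Rep m) (i : Idx) : ℂ :=
  p.z i.1 * p.s i.2.1 ^ (2 * m + 1) * (p.chi i.2.2 / p.s i.2.1 ^ (3 * m))

/-- Normalising factor of the coordinate `h`. -/
noncomputable def Rep.kfac (p : Rep m) (i : Idx) : ℂ :=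
  p.z i.1 ^ (4 * m + 1) / p.s i.2.1 ^ (m - 1)

/-- `(ρ_b - ρ_b') / F`, upstairs. -/
noncomputable def Rep.dfac (p : Rep m) (b b' : Fin 2) : ℂ :=
  if b = b' then 0 else if b = 0 then Alg.dD (fun k => p.z k ^ m) (fun k => p.s k ^ m)
  else - Alg.dD (fun k => p.z k ^ m) (fun k => p.s k ^ m)

/-- The change of coordinates from trivialisation `i` to trivialisation `j`. -/
noncomputable def Rep.trans (p : Rep m) (i j : Idx) : Matrix (Fin 3) (Fin 3) ℂ :=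
  !![p.qfac i / p.qfac j, 0, 0;
     0, p.qfac i / p.qfac j, 0;
     p.dfac i.2.1 j.2.1 * p.u * p.qfac i / p.kfac j,
       p.dfac i.2.1 j.2.1 * p.v * p.qfac i / p.kfac j,
       p.kfac i / p.kfac j]

/-- `z`-coordinate relative to `a`. -/
noncomputable def Rep.zc (p : Rep m) (a a' : Fin 2) : ℂ := p.z a' / p.z a

/-- `s`-coordinate relative to `b`. -/
noncomputable def Rep.sc (p : Rep m) (b b' : Fin 2) : ℂ := p.s b' / p.s b

/-- The index of the monomial family of bidegree `(A, B)`. -/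
abbrev MonoIdx (m A B : ℕ) : Type := Fin (A + 1) × (Fin (B + 1) ⊕ Fin (B - 6 * m + 1))

/-- The monomials of bidegree `(A, B)`, including those containing `u v` once. -/
def Rep.mono (p : Rep m) (A B : ℕ) : MonoIdx m A B → ℂ
  | (i, .inl j) => p.z 0 ^ (i : ℕ) * p.z 1 ^ (A - i) * (p.s 0 ^ (j : ℕ) * p.s 1 ^ (B - j))
  | (i, .inr j) => p.z 0 ^ (i : ℕ) * p.z 1 ^ (A - i) *
      (p.u * p.v * (p.s 0 ^ (j : ℕ) * p.s 1 ^ (B - 6 * m - j)))

/-- What the geometric module provides (with its own `ChartedSpace` instance on `X m`). -/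
structure GeomSpec (m : ℕ) [ChartedSpace (Cn 2) (X m)] : Prop where
  manifold : IsManifold 𝓘(ℂ, Cn 2) ω (X m)
  t2 : T2Space (X m)
  compact : CompactSpace (X m)
  connected : ConnectedSpace (X m)
  /-- Local holomorphic choice of representatives. -/
  local_lift : ∀ x : X m, ∃ (U : Set (X m)) (L : X m → Rep m), IsOpen U ∧ x ∈ U ∧
    (∀ y ∈ U, (L y).pt = y) ∧
    ContMDiffOn 𝓘(ℂ, Cn 2) 𝓘(ℂ, (Fin 2 → ℂ) × (Fin 2 → ℂ) × ℂ × ℂ) ω (fun y => (L y).tuple) U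
  /-- Holomorphic sheets over the affine `(z, s)` plane. -/
  affine : ∀ (W : Set ℂ) (u v : ℂ → ℂ), IsOpen W → DifferentiableOn ℂ u W →
    DifferentiableOn ℂ v W → ∀ (L : ℂ → ℂ → Rep m),
    (∀ z, ∀ s ∈ W, (L z s).tuple = (![1, z], ![1, s], u s, v s)) →
    ContMDiffOn 𝓘(ℂ, ℂ × ℂ) 𝓘(ℂ, Cn 2) ω (fun p : ℂ × ℂ => (L p.1 p.2).pt) (Set.univ ×ˢ W)
  /-- The monomials separate points. -/
  mono_inj : ∀ A B, 1 ≤ A → 6 * m + 1 ≤ B → ∀ (p q : Rep m) (c : ℂ),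
    (∀ l, p.mono A B l = c * q.mono A B l) → p.pt = q.pt
  /-- The monomials separate tangent vectors. -/
  mono_immersive : ∀ A B, 1 ≤ A → 6 * m + 1 ≤ B → ∀ (U : Set (X m)) (L : X m → Rep m), IsOpen U →
    (∀ y ∈ U, (L y).pt = y) →
    ContMDiffOn 𝓘(ℂ, Cn 2) 𝓘(ℂ, (Fin 2 → ℂ) × (Fin 2 → ℂ) × ℂ × ℂ) ω (fun y => (L y).tuple) U →
    ∀ x ∈ U, ∀ (ξ : Cn 2) (c : ℂ),
      (∀ l, mfderiv 𝓘(ℂ, Cn 2) 𝓘(ℂ, ℂ) (fun y => (L y).mono A B l) x ξ =
        c * (L x).mono A B l) → ξ = 0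

end Vale.Agent.P296
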