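import Vale.Agent.P296.Bundle.AmpleMain
import Vale.Agent.P296.Bridge.Main
import Vale.Agent.P296.Algebra.Main
import Vale.Agent.P296.Geometry.Total

/-! The counterexample, given the analytic core. -/

open Set
open scoped Manifold ContDiff Topology

noncomputable section

namespace Vale.Agent.P296

theorem counterexample_of_core (an : An.Core) :
    ∃ (M : Type) (_ : TopologicalSpace M) (_ : ChartedSpace (Cn 2) M),
      T2Space M ∧ CompactSpace M ∧ ConnectedSpace M ∧ IsManifold 𝓘(ℂ, Cn 2) ω M ∧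
      IsProjectiveEmbeddable 2 M ∧
      ∃ (ι : Type) (Z : VectorBundleCore ℂ M (Fin 3 → ℂ) ι), Z.IsContMDiff 𝓘(ℂ, Cn 2) ω ∧
        IsAmple 2 Z ∧ ∀ H, IsHermitianMetric 2 Z H → ¬ IsGriffithsPositive 2 Z H := by
  obtain ⟨m₀, hm₀⟩ := an
  have hm : 1 ≤ max m₀ 1 := le_max_right _ _
  let cs := Geo.chartedSpace hm
  letI := cs
  have hg := Geo.geomSpec hm
  exact ⟨X (max m₀ 1), inferInstance, cs, hg.t2, hg.compact, hg.connected, hg.manifold,
    isProjective hg, Idx, bundle hm hg, bundle_isContMDiff hm hg,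
    isAmple_bundle hm hg Alg.core,
    fun H h1 h2 => (hm₀ _ (le_max_left _ _)).false (Br.bridge H h1 h2).some⟩

end Vale.Agent.P296
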